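import Vale.Agent.P141.H159.StackR
import Vale.Agent.P141.H733.RawSum

/-!
# P141, line (A), stack: `stack_plane` for the slots `B = V b`, `C = L c`

Letters of `H505.Sk1` : `A i k y z`, `b i k x y`, `c i k x z`, `Lᵀ L = Th`, `Lᵀ V = G`; the member
`i` runs through a finite family (the points `x0`). `stack_fam` : the sum of
`|nf3 A b (Gᵀ c)|` from the raw plane sums of every member.
-/

namespace Vale.Agent.P141.H159.StackF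

open Finset Matrix Vale.Agent.P075 Vale.Agent.P141.PL
open Vale.Agent.P141.PL.H588 (Xg hd)
open Vale.Agent.P141.PL.H804 (hd_symm phi_mono)
open Vale.Agent.P141.H103 (QW GW PA QW_psd)
open Vale.Agent.P141.H585.PairCh (phs)
open Vale.Agent.P141.H677 (nf3)
open Vale.Agent.P141.H505.Sk1 (hdl W3 W1 WB)
open Vale.Agent.P141.H159.StackM Vale.Agent.P141.H159.StackR

noncomputable section

variable {κ l : Type} [Fintype κ] [DecidableEq κ] [Fintype l] [DecidableEq l]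

/-! ### One slot -/

/-- the Gram matrix of `L c` at the hub `z` -/
theorem QW_L (k : ℕ) (L : ℤ → Matrix l κ ℝ) (c : ℤ → ℤ → κ → ℝ) (n m : ℤ) :
    QW k k (fun x z => L x *ᵥ c x z) (fun _ => (1 : Matrix l l ℝ)) n m =
      QW k k c (fun x => (L x)ᵀ * L x) n m := by
  ext p q
  unfold QW
  congr 1
  refine sum_congr rfl fun x _ => ?_
  rw [Matrix.one_mulVec, ← Matrix.mulVec_mulVec, Matrix.dotProduct_mulVec (c x _) (L x)ᵀ,
    Matrix.vecMul_transpose]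

/-- `V` with `Vᵀ V ≤ 1` decreases the Gram matrix -/
theorem QW_V_le {k : ℕ} {V : ℤ → Matrix l κ ℝ} (hV : ∀ x, (1 - (V x)ᵀ * V x).PosSemidef)
    (b : ℤ → ℤ → κ → ℝ) (n m : ℤ) :
    (QW k k b (fun _ => 1) n m -
      QW k k (fun x y => V x *ᵥ b x y) (fun _ => (1 : Matrix l l ℝ)) n m).PosSemidef := by
  have e : QW k k b (fun _ => 1) n m -
      QW k k (fun x y => V x *ᵥ b x y) (fun _ => (1 : Matrix l l ℝ)) n m =
      QW k k b (fun x => 1 - (V x)ᵀ * V x) n m := by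
    rw [QW_L]
    ext p q
    rw [Matrix.sub_apply]
    unfold QW
    rw [← mul_sub, ← sum_sub_distrib]
    congr 1
    refine sum_congr rfl fun x _ => ?_
    rw [Matrix.sub_mulVec, dotProduct_sub]
  rw [e]
  exact QW_psd hV n m

/-- the node form of `V b`, `L c` -/
theorem nf3_VL (A : ℤ → ℤ → ℝ) (b c : ℤ → ℤ → κ → ℝ) (L V : ℤ → Matrix l κ ℝ)
    (G : ℤ → Matrix κ κ ℝ) (hG : ∀ x, (L x)ᵀ * V x = G x) (k : ℕ) (m : Pt) :
    nf3 A (fun x y => V x *ᵥ b x y) (fun z x => L x *ᵥ c x z) k m =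
      nf3 A b (fun z x => (G x)ᵀ *ᵥ c x z) k m := by
  unfold Vale.Agent.P141.H677.nf3
  congr 1
  refine sum_congr rfl fun z _ => sum_congr rfl fun x _ => sum_congr rfl fun y _ => ?_
  have e : (V x *ᵥ b x y) ⬝ᵥ (L x *ᵥ c x z) = b x y ⬝ᵥ ((G x)ᵀ *ᵥ c x z) := by
    rw [← hG, transpose_mul, transpose_transpose, ← Matrix.mulVec_mulVec,
      Matrix.dotProduct_mulVec (b x y) (V x)ᵀ, Matrix.vecMul_transpose]
  simp only [e]

theorem sum_Icc_Ico (N : ℕ) (f : ℕ → ℝ) : ∑ k ∈ Icc 1 N, f k = ∑ k ∈ Ico 0 N, f (k + 1) := by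
  rw [sum_Ico_add' f 0 N 1]
  refine sum_congr ?_ fun _ _ => rfl
  ext k
  simp only [mem_Icc, mem_Ico]
  omega

/-! ### Families -/

section fam

variable {X : Type*} {I : Finset X} {N : ℕ} {r3 r2 r1 : X → ℤ} {pl : X → ℕ → ℤ}
  {s : X → ℕ → Finset Pt} {A : X → ℕ → ℤ → ℤ → ℝ} {b c : X → ℕ → ℤ → ℤ → κ → ℝ}
  {Th G : X → ℤ → ℕ → ℤ → Matrix κ κ ℝ} {L V : X → ℤ → ℕ → ℤ → Matrix l κ ℝ} {τ cC : ℝ}

/-- the three functions of the node -/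
def Af (A : X → ℕ → ℤ → ℤ → ℝ) (i : X) (k : ℕ) (_ : Pt) (z y : ℤ) : ℝ := A i k y z
@[inherit_doc Af] def Bf (V : X → ℤ → ℕ → ℤ → Matrix l κ ℝ) (b : X → ℕ → ℤ → ℤ → κ → ℝ) (i : X)
    (k : ℕ) (m : Pt) (x y : ℤ) : l → ℝ := V i x k m.1 *ᵥ b i k x y
@[inherit_doc Af] def Cf (L : X → ℤ → ℕ → ℤ → Matrix l κ ℝ) (c : X → ℕ → ℤ → ℤ → κ → ℝ) (i : X)
    (k : ℕ) (m : Pt) (z x : ℤ) : l → ℝ := L i x k m.1 *ᵥ c i k x z

/-- the raw pair `(A, C)` of one member, `H505.Sk1.PairACr` -/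
def RA (N : ℕ) (r1 r2 r3 : ℤ) (pl : ℕ → ℤ) (A : ℕ → ℤ → ℤ → ℝ) (c : ℕ → ℤ → ℤ → κ → ℝ)
    (Th : ℤ → ℕ → ℤ → Matrix κ κ ℝ) (x2 : ℝ) : ℝ :=
  ∑ k ∈ Ico 0 N, GW N r2 r3 r1 (k + 1) (pl (k + 1)) (fun n2 n1 m =>
      (PA (A (k + 1)) (k + 1) (k + 1) n2 m * (hd (k + 1) *
        phs x2 (W3 (c (k + 1)) Th (k + 1) (k + 1) n1 m) * hd (k + 1))).trace)

/-- the raw pair `(B, C)` of one member -/
def RB (N : ℕ) (r1 r2 r3 : ℤ) (pl : ℕ → ℤ) (b c : ℕ → ℤ → ℤ → κ → ℝ)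
    (L V : ℤ → ℕ → ℤ → Matrix l κ ℝ) (x2 : ℝ) : ℝ :=
  ∑ k ∈ Ico 0 N, GW N r2 r1 r3 (k + 1) (pl (k + 1)) (fun n2 n3 n1 =>
      (Gx (k + 1) (fun y x => V x (k + 1) n3 *ᵥ b (k + 1) x y) n2 n1 * (hdl l (k + 1) *
        phs x2 (W1 (c (k + 1)) L (k + 1) n3 n1) * hdl l (k + 1))).trace)

/-- static `V` : the left side of `H505.Sk1.PairBCr` -/
theorem RB_static (N : ℕ) (r1 r2 r3 : ℤ) (pl : ℕ → ℤ) (b c : ℕ → ℤ → ℤ → κ → ℝ)
    (L : ℤ → ℕ → ℤ → Matrix l κ ℝ) (V : Matrix l κ ℝ) (x2 : ℝ) :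
    RB N r1 r2 r3 pl b c L (fun _ _ _ => V) x2 =
    ∑ k ∈ Ico 0 N, GW N r2 r1 r3 (k + 1) (pl (k + 1)) (fun n2 n3 n1 =>
      (WB (b (k + 1)) V (k + 1) n2 n1 * (hdl l (k + 1) *
        phs x2 (W1 (c (k + 1)) L (k + 1) n3 n1) * hdl l (k + 1))).trace) := rfl

theorem PBCr_eq (x : ℝ) : PBCr I N r3 r2 r1 pl (Bf V b) (Cf L c) x =
    ∑ i ∈ I, RB N (r1 i) (r2 i) (r3 i) (pl i) (b i) (c i) (L i) (V i) (x ^ 2) := by
  unfold PBCr RB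
  refine sum_congr rfl fun i _ => ?_
  rw [sum_Icc_Ico]
  rfl

theorem PCAr_eq (hL : ∀ i ∈ I, ∀ x k m, (L i x k m)ᵀ * L i x k m = Th i x k m) (x : ℝ) :
    PCAr I N r3 r2 r1 pl (Cf L c) (Af A) x =
    ∑ i ∈ I, RA N (r1 i) (r2 i) (r3 i) (pl i) (A i) (c i) (Th i) (x ^ 2) := by
  unfold PCAr RA
  refine sum_congr rfl fun i hi => ?_
  rw [sum_Icc_Ico]
  refine sum_congr rfl fun k _ => ?_
  refine congrArg (GW N (r2 i) (r3 i) (r1 i) (k + 1) (pl i (k + 1)))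
    (funext fun n => funext fun n' => funext fun m => ?_)
  have e : QW (k + 1) (k + 1) (fun x z => L i x (k + 1) m *ᵥ c i (k + 1) x z)
      (fun _ => (1 : Matrix l l ℝ)) n' m = W3 (c i (k + 1)) (Th i) (k + 1) (k + 1) n' m := by
    rw [QW_L]
    unfold Vale.Agent.P141.H505.Sk1.W3
    congr 1
    funext x
    exact hL i hi x (k + 1) m
  rw [← e]
  rfl

/-- the static pair decreases with `V` -/
theorem PAB_le (hV : ∀ i ∈ I, ∀ x k m, (1 - (V i x k m)ᵀ * V i x k m).PosSemidef) {x : ℝ}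
    {y : ℝ} (hy : 0 < y) : PAB I N r3 r2 r1 pl (Af A) (Bf V b) x y ≤
      PAB I N r3 r2 r1 pl (Af A) (fun i k _ => b i k) x y := by
  unfold PAB
  refine sum_le_sum fun i hi => sum_le_sum fun k _ => GW_mono' _ _ _ _ _ _ fun n n' m => ?_
  unfold sp
  refine trace_mul_le_right ?_ ?_
  · unfold Vale.Agent.P141.H585.PairCh.phs
    exact (phi_psd ((PL.H588.Xg_psd _ _ _ _ _).smul (by positivity))).smul (by positivity)
  · have h1 : (QW k k (b i k) (fun _ => 1) n' m - QW k k (Bf V b i k (n, m, n'))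
        (fun _ => (1 : Matrix l l ℝ)) n' m).PosSemidef :=
      QW_V_le (fun x => hV i hi x k n) (b i k) n' m
    have h2 := phi_mono ((Q1_psd k (Bf V b i k (n, m, n')) n' m).smul
      (inv_nonneg.2 (sq_nonneg y))) (h1.smul (inv_nonneg.2 (sq_nonneg y)))
    rw [← smul_add, add_sub_cancel] at h2
    have h3 := psd_conj_symm (h2.smul (sq_nonneg y)) (hd_symm k)
    unfold Vale.Agent.P141.H585.PairCh.phs
    rw [smul_sub, Matrix.mul_sub, Matrix.sub_mul] at h3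
    exact h3

/-- **The stage sum of the slots `V b`, `L c`, summed over the family.** `E i` energy of the stack,
`EA i`, `EV i` numbers of the partners. -/
theorem stack_fam [Nonempty l] (hτ : 0 < τ) (hC : 0 < cC)
    (hs : ∀ i ∈ I, Nod N (r3 i) (r2 i) (r1 i) (pl i) (s i))
    (hLL : ∀ i ∈ I, ∀ x k m, (L i x k m)ᵀ * L i x k m = Th i x k m)
    (hLV : ∀ i ∈ I, ∀ x k m, (L i x k m)ᵀ * V i x k m = G i x k m)
    (hV : ∀ i ∈ I, ∀ x k m, (1 - (V i x k m)ᵀ * V i x k m).PosSemidef)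
    (capA : ∀ i ∈ I, ∀ k ∈ Icc 1 N, ∀ m ∈ s i k,
      (τ ^ 2 • (1 : Matrix (Ix k) (Ix k) ℝ) - PA (A i k) k k m.2.1 m.1).PosSemidef)
    (capB : ∀ i ∈ I, ∀ k ∈ Icc 1 N, ∀ m ∈ s i k, (τ ^ 2 • (1 : Matrix (Ix k) (Ix k) ℝ) -
      QW k k (b i k) (fun _ => 1) m.2.2 m.2.1).PosSemidef)
    (capC : ∀ i ∈ I, ∀ k ∈ Icc 1 N, ∀ m ∈ s i k, (cC ^ 2 • (1 : Matrix (Ix k) (Ix k) ℝ) -
      W3 (c i k) (Th i) k k m.2.2 m.1).PosSemidef)
    {P₀ P₁ Z σ e₂ θ M : ℝ} {E EA EV : X → ℝ} (hP₀ : 0 ≤ P₀) (hZ0 : 0 ≤ Z) (hθ : 0 < θ)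
    (hM : 0 ≤ M) (hE : ∀ i, 0 ≤ E i) (hEA : ∀ i, 0 ≤ EA i) (hEV : ∀ i, 0 ≤ EV i) {D L₀ L₁ : ℕ}
    (hDσ : τ / 2 ^ (D - 1) ≤ σ) (hσ : σ ≤ e₂) (he₂ : e₂ ≤ τ)
    (hL₀ : cC / 2 ^ (L₀ - 1) ≤ θ * τ) (hL₁ : cC / 2 ^ (L₁ - 1) ≤ e₂) (hθc : θ * τ ≤ cC)
    (hAB : ∀ h, 0 < h → h ≤ τ → PAB I N r3 r2 r1 pl (Af A) (fun i k _ => b i k) h h ≤ P₀ * h ^ 2)
    (hBC : ∀ i ∈ I, ∀ x, θ * τ ≤ x → x ≤ cC →
      RB N (r1 i) (r2 i) (r3 i) (pl i) (b i) (c i) (L i) (V i) (x ^ 2) ≤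
      M * (√(x ^ 2 * E i * (τ ^ 2 * EV i)) + τ ^ 2 * E i))
    (hCA : ∀ i ∈ I, ∀ x, θ * τ ≤ x → x ≤ cC →
      RA N (r1 i) (r2 i) (r3 i) (pl i) (A i) (c i) (Th i) (x ^ 2) ≤
      M * (√(x ^ 2 * E i * (τ ^ 2 * EA i)) + τ ^ 2 * E i))
    (hP1 : ∀ x, e₂ ≤ x → x ≤ θ * τ → PCA I N r3 r2 r1 pl (Cf L c) (Af A) x σ ≤ P₁ * x ^ 2)
    (hZB : ∀ h, 0 < h → h ≤ e₂ → PBC I N r3 r2 r1 pl (Bf V b) (Cf L c) h h ≤ Z * h ^ 2)
    (hZA : ∀ h, 0 < h → h ≤ e₂ → PCA I N r3 r2 r1 pl (Cf L c) (Af A) h h ≤ Z * h ^ 2) :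
    ∑ i ∈ I, ∑ k ∈ Icc 1 N, ∑ m ∈ s i k, |nf3 (fun z y => A i k y z) (b i k)
        (fun z x => (G i x k m.1)ᵀ *ᵥ c i k x z) k m| ≤
      6 * M * τ * L₀ * (√((θ * √((∑ i ∈ I, E i) * ∑ i ∈ I, EA i) + ∑ i ∈ I, E i) *
        (θ * √((∑ i ∈ I, E i) * ∑ i ∈ I, EV i) + ∑ i ∈ I, E i)) / θ) +
      6 * D * τ * (√(P₀ * M * (θ * √((∑ i ∈ I, E i) * ∑ i ∈ I, EA i) + ∑ i ∈ I, E i)) +
        √(P₀ * M * (θ * √((∑ i ∈ I, E i) * ∑ i ∈ I, EV i) + ∑ i ∈ I, E i))) +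
      6 * L₁ * τ * √(P₁ * M * (θ * √((∑ i ∈ I, E i) * ∑ i ∈ I, EV i) + ∑ i ∈ I, E i)) +
      54 * (P₀ + Z) * e₂ := by
  have cs : ∀ {R F : X → ℝ} {x : ℝ}, (∀ i, 0 ≤ F i) →
      (∀ i ∈ I, R i ≤ M * (√(x ^ 2 * E i * (τ ^ 2 * F i)) + τ ^ 2 * E i)) →
      ∑ i ∈ I, R i ≤ M * (√(x ^ 2 * (∑ i ∈ I, E i) * (τ ^ 2 * ∑ i ∈ I, F i)) +
        τ ^ 2 * ∑ i ∈ I, E i) := by
    intro R F x hF h
    have h1 := H733.raw_form (R := R) (E := E) (F := F) (G := fun _ => 0) (H := fun _ => 0)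
      (D := fun _ => 0) (Λ := M) (x := x) (τ := τ) hM hE hF (fun _ => le_rfl) (fun _ => le_rfl)
      (fun _ => le_rfl) (fun i hi => by
        have h2 := h i hi
        simp only [mul_zero, zero_mul, Real.sqrt_zero, add_zero]
        exact h2)
    simpa only [sum_const_zero, add_zero] using h1
  have h := stack_plane (l := l) (X := X) (I := I) (N := N) (r3 := r3) (r2 := r2) (r1 := r1)
    (c := pl) (s := s) (A := Af A) (B := Bf V b) (C := Cf L c) (τ := τ) (cC := cC) hτ hC hs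
    (fun i hi k hk m hm => capA_swap (by positivity) (capA i hi k hk m hm))
    (fun i hi k hk m hm => by
      refine capB_swap (by positivity) ?_
      have h1 := (capB i hi k hk m hm).add (QW_V_le (fun x => hV i hi x k m.1) (b i k) m.2.2 m.2.1)
      rw [sub_add_sub_cancel] at h1
      exact h1)
    (fun i hi k hk m hm => by
      have h1 := capC i hi k hk m hm
      have h2 := QW_L k (fun x => L i x k m.1) (c i k) m.2.2 m.1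
      have h3 : (fun x => (L i x k m.1)ᵀ * L i x k m.1) = fun x => Th i x k m.1 := by
        funext x
        exact hLL i hi x k m.1
      rw [h3] at h2
      rw [show QW k k (fun x z => Cf L c i k m z x) (fun _ => (1 : Matrix l l ℝ)) m.2.2 m.1 =
        W3 (c i k) (Th i) k k m.2.2 m.1 from h2]
      exact h1)
    (P₀ := P₀) (P₁ := P₁) (Z := Z) (σ := σ) (e₂ := e₂) (θ := θ) (M := M) (E := ∑ i ∈ I, E i)
    (EA := ∑ i ∈ I, EA i) (EV := ∑ i ∈ I, EV i) hP₀ hZ0 hθ hM (sum_nonneg fun i _ => hE i)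
    (D := D) (L₀ := L₀) (L₁ := L₁) hDσ hσ he₂ hL₀ hL₁
    (fun h h0 h1 => (PAB_le hV h0).trans (hAB h h0 h1))
    (fun x hx hx' => by
      rw [PBCr_eq]
      exact cs hEV fun i hi => hBC i hi x hx hx')
    (fun x hx hx' => by
      rw [PCAr_eq hLL]
      exact cs hEA fun i hi => hCA i hi x hx hx')
    hθc hP1 hZB hZA
  refine le_trans (le_of_eq ?_) h
  refine sum_congr rfl fun i hi => sum_congr rfl fun k _ => sum_congr rfl fun m _ => ?_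
  exact congrArg abs (nf3_VL (fun z y => A i k y z) (b i k) (c i k) (fun x => L i x k m.1)
    (fun x => V i x k m.1) (fun x => G i x k m.1) (fun x => hLV i hi x k m.1) k m).symm

end fam

end

end Vale.Agent.P141.H159.StackF
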