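import Vale.Agent.P141.H505.SkelStack
import Vale.Agent.P141.H145.Stage3
import Vale.Agent.P141.H677.Fam
import Vale.Agent.P141.H536.LightQ
import Vale.Agent.P141.H103.PotW

/-!
# P141, line (A), stack: from the node form to matrices and plane sums

Letters of `H677`: `A z y`, `B x y`, `C z x`; nodes `m = (m3, m2, m1)`; functions may depend on the
node. `mzy`, `myx`, `mxz` : the three blocks; `nf3_tr` : the node form is a trace; `tA`, `tB`, `tC` :
the Gram matrices at the hubs; `RPr_y`, `RPr_x`, `RPr_z` : the pair sums of the stage as plane sums.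
-/

namespace Vale.Agent.P141.H159.StackM

open Finset Matrix Vale.Agent.P075 Vale.Agent.P141.PL
open Vale.Agent.P141.PL.H588 (Xg hd smp sum_iv)
open Vale.Agent.P141.PL.H804 (hd_symm hd_sq)
open Vale.Agent.P141.H103 (QW GW)
open Vale.Agent.P141.H536 (hL hL_symm hd_diag)
open Vale.Agent.P141.H585.PairCh (phs)
open Vale.Agent.P141.H677 (nf3)
open Vale.Agent.P141.H145 (RPr)

noncomputable section

variable {l : Type} [Fintype l] [DecidableEq l]

/-! ### The blocks -/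

/-- the block of `A z y`, cells `i` of `z`, `j` of `y` -/
def mzy (k : ℕ) (A : ℤ → ℤ → ℝ) (i j : ℤ) : Matrix (Ix k) (Ix k) ℝ := fun p q =>
  A (2 ^ k * i + val k p) (2 ^ k * j + val k q)

/-- the block of `B x y`, cells `i` of `x`, `j` of `y` : rows `y`, columns `(x, label)` -/
def myx (k : ℕ) (B : ℤ → ℤ → l → ℝ) (i j : ℤ) : Matrix (Ix k) (Ix k × l) ℝ := fun q p =>
  B (2 ^ k * i + val k p.1) (2 ^ k * j + val k q) p.2

/-- the block of `C z x`, cells `j` of `z`, `i` of `x` : rows `(x, label)`, columns `z` -/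
def mxz (k : ℕ) (C : ℤ → ℤ → l → ℝ) (j i : ℤ) : Matrix (Ix k × l) (Ix k) ℝ := fun p q =>
  C (2 ^ k * j + val k q) (2 ^ k * i + val k p.1) p.2

theorem tr6 {α β γ : Type*} [Fintype α] [DecidableEq α] [Fintype β] [DecidableEq β] [Fintype γ]
    [DecidableEq γ] (a : α → ℝ) (b : β → ℝ) (c : γ → ℝ) (M : Matrix α β ℝ) (N : Matrix β γ ℝ)
    (P : Matrix γ α ℝ) :
    (diagonal a * M * diagonal b * N * diagonal c * P).trace =
      ∑ i, ∑ p, ∑ j, a i * c p * b j * (M i j * (N j p * P p i)) := by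
  unfold Matrix.trace
  refine sum_congr rfl fun i _ => ?_
  rw [Matrix.diag_apply, Matrix.mul_apply]
  refine sum_congr rfl fun p _ => ?_
  rw [Matrix.mul_diagonal, Matrix.mul_apply, sum_mul, sum_mul]
  refine sum_congr rfl fun j _ => ?_
  rw [Matrix.mul_diagonal, Matrix.diagonal_mul]
  ring

theorem hs_cell (k : ℕ) (m : ℤ) (i : Ix k) (hk : 1 ≤ k) :
    hs k (2 ^ k * m + val k i : ℤ) = hs k (val k i : ℤ) := by
  obtain ⟨j, rfl⟩ := Nat.exists_eq_add_of_le' hk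
  have h0 := PL.H804.hs_val j 0 i
  rw [mul_zero, zero_add] at h0
  rw [PL.H804.hs_val j m i, h0]

/-- **The node form is a trace.** -/
theorem nf3_tr {k : ℕ} (hk : 1 ≤ k) (A : ℤ → ℤ → ℝ) (B C : ℤ → ℤ → l → ℝ) (m : Pt) :
    nf3 A B C k m = ((2 : ℝ) ^ k)⁻¹ * (hd k * mzy k A m.1 m.2.1 * hd k * myx k B m.2.2 m.2.1 *
      hL l k * mxz k C m.1 m.2.2).trace := by
  rw [hd_diag hk, hL, tr6]
  unfold nf3
  congr 1
  rw [sum_iv]
  refine sum_congr rfl fun i _ => ?_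
  rw [Fintype.sum_prod_type, sum_iv]
  refine sum_congr rfl fun x _ => ?_
  rw [sum_iv, sum_comm]
  refine sum_congr rfl fun y _ => ?_
  unfold mzy myx mxz dotProduct
  rw [mul_sum, mul_sum]
  refine sum_congr rfl fun t _ => ?_
  rw [hs_cell k _ i hk, hs_cell k _ x hk, hs_cell k _ y hk]

/-! ### The Gram matrices -/

/-- hub `(x, label)`: Gram matrix of `f w x`, outer variable `w` in the cell `n` -/
def Gx (k : ℕ) (f : ℤ → ℤ → l → ℝ) (n m : ℤ) : Matrix (Ix k × l) (Ix k × l) ℝ := fun p q =>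
  ((2 : ℝ) ^ k * 2 ^ k)⁻¹ * ∑ w ∈ iv k n,
    f w (2 ^ k * m + val k p.1) p.2 * f w (2 ^ k * m + val k q.1) q.2

theorem four (k : ℕ) : ((4 : ℝ) ^ k)⁻¹ = ((2 : ℝ) ^ k * 2 ^ k)⁻¹ := by
  rw [← mul_pow]
  norm_num

theorem gA_y (k : ℕ) (A : ℤ → ℤ → ℝ) (i j : ℤ) :
    ((4 : ℝ) ^ k)⁻¹ • ((mzy k A i j)ᵀ * mzy k A i j) = Xg k k A i j := by
  rw [four]
  rfl

theorem gA_z (k : ℕ) (A : ℤ → ℤ → ℝ) (i j : ℤ) :
    ((4 : ℝ) ^ k)⁻¹ • (mzy k A i j * (mzy k A i j)ᵀ) = Xg k k (fun y z => A z y) j i := by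
  rw [four]
  rfl

omit [DecidableEq l] in
theorem gB_y (k : ℕ) (B : ℤ → ℤ → l → ℝ) [DecidableEq l] (i j : ℤ) :
    ((4 : ℝ) ^ k)⁻¹ • (myx k B i j * (myx k B i j)ᵀ) = QW k k B (fun _ => 1) i j := by
  rw [four]
  ext q q'
  rw [Matrix.smul_apply, Matrix.mul_apply, smul_eq_mul]
  unfold QW
  congr 1
  rw [sum_iv, Fintype.sum_prod_type]
  refine sum_congr rfl fun x _ => ?_
  rw [Matrix.one_mulVec]
  rfl

omit [DecidableEq l] in
theorem gC_z (k : ℕ) (C : ℤ → ℤ → l → ℝ) [DecidableEq l] (j i : ℤ) :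
    ((4 : ℝ) ^ k)⁻¹ • ((mxz k C j i)ᵀ * mxz k C j i) =
      QW k k (fun x z => C z x) (fun _ => 1) i j := by
  rw [four]
  ext q q'
  rw [Matrix.smul_apply, Matrix.mul_apply, smul_eq_mul]
  unfold QW
  congr 1
  rw [sum_iv, Fintype.sum_prod_type]
  refine sum_congr rfl fun x _ => ?_
  rw [Matrix.one_mulVec]
  rfl

omit [Fintype l] [DecidableEq l] in
theorem gB_x (k : ℕ) (B : ℤ → ℤ → l → ℝ) (i j : ℤ) :
    ((4 : ℝ) ^ k)⁻¹ • ((myx k B i j)ᵀ * myx k B i j) = Gx k (fun y x => B x y) j i := by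
  rw [four]
  ext p q
  rw [Matrix.smul_apply, Matrix.mul_apply, smul_eq_mul]
  unfold Gx
  congr 1
  rw [sum_iv]
  rfl

omit [Fintype l] [DecidableEq l] in
theorem gC_x (k : ℕ) (C : ℤ → ℤ → l → ℝ) (j i : ℤ) :
    ((4 : ℝ) ^ k)⁻¹ • (mxz k C j i * (mxz k C j i)ᵀ) = Gx k C j i := by
  rw [four]
  ext p q
  rw [Matrix.smul_apply, Matrix.mul_apply, smul_eq_mul]
  unfold Gx
  congr 1
  rw [sum_iv]
  rfl

theorem Gx_psd (k : ℕ) (f : ℤ → ℤ → l → ℝ) (n m : ℤ) : (Gx k f n m).PosSemidef := by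
  rw [← gC_x k f n m]
  have h := (psd_transpose_mul (mxz k f n m)ᵀ).smul (show (0 : ℝ) ≤ ((4 : ℝ) ^ k)⁻¹ by positivity)
  rwa [transpose_transpose] at h

theorem Q1_psd (k : ℕ) (B : ℤ → ℤ → l → ℝ) (n m : ℤ) :
    (QW k k B (fun _ => 1) n m).PosSemidef := by
  rw [← gB_y k B n m]
  have h := (psd_transpose_mul (myx k B n m)ᵀ).smul (show (0 : ℝ) ≤ ((4 : ℝ) ^ k)⁻¹ by positivity)
  rwa [transpose_transpose] at h

/-! ### The saturated pairs -/

/-- a saturated pair at a hub -/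
def sp {η : Type*} [Fintype η] [DecidableEq η] (h : Matrix η η ℝ) (x y : ℝ) (X Y : Matrix η η ℝ) :
    ℝ := (phs (x ^ 2) X * (h * phs (y ^ 2) Y * h)).trace

section sp

variable {η : Type*} [Fintype η] [DecidableEq η] {h X Y : Matrix η η ℝ}

theorem sp_nonneg (hh : hᵀ = h) (hX : X.PosSemidef) (hY : Y.PosSemidef) (x y : ℝ) :
    0 ≤ sp h x y X Y := by
  unfold sp phs
  refine trace_mul_nonneg ?_ (psd_conj_symm ?_ hh)
  · exact (phi_psd (hX.smul (by positivity))).smul (by positivity)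
  · exact (phi_psd (hY.smul (by positivity))).smul (by positivity)

theorem sp_comm (x y : ℝ) : sp h x y X Y = sp h y x Y X := by
  unfold sp
  rw [Matrix.trace_mul_comm]
  rw [Matrix.mul_assoc, Matrix.mul_assoc, Matrix.trace_mul_comm]
  simp only [Matrix.mul_assoc]

theorem sp_term {μ ν : Type*} [Fintype μ] [Fintype ν] (k : ℕ) (x y : ℝ) (F : Matrix μ η ℝ)
    (H : Matrix η ν ℝ) :
    x ^ 2 * y ^ 2 * (4 ^ k * (phi (((x ^ 2)⁻¹ * (4 ^ k)⁻¹) • (Fᵀ * F)) *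
      (h * phi (((y ^ 2)⁻¹ * (4 ^ k)⁻¹) • (H * Hᵀ)) * h)).trace) =
      4 ^ k * sp h x y (((4 : ℝ) ^ k)⁻¹ • (Fᵀ * F)) (((4 : ℝ) ^ k)⁻¹ • (H * Hᵀ)) := by
  unfold sp phs
  rw [smul_smul, smul_smul]
  simp only [Matrix.mul_smul, Matrix.smul_mul, trace_smul, smul_eq_mul]
  ring

/-- `phs` is below the matrix -/
theorem phs_le {s : ℝ} (hs : 0 < s) (hX : X.PosSemidef) : (X - phs s X).PosSemidef := by
  have h := (PL.H804.phi_le_self (hX.smul (inv_pos.2 hs).le)).smul hs.le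
  rw [smul_sub, smul_smul, mul_inv_cancel₀ hs.ne', one_smul] at h
  exact h

/-- the first slot raw -/
theorem sp_raw (hh : hᵀ = h) (hX : X.PosSemidef) (hY : Y.PosSemidef) {x : ℝ} (hx : 0 < x)
    (y : ℝ) : sp h x y X Y ≤ (X * (h * phs (y ^ 2) Y * h)).trace := by
  unfold sp
  refine trace_mul_le_left (psd_conj_symm ?_ hh) (phs_le (by positivity) hX)
  exact (phi_psd (hY.smul (by positivity))).smul (by positivity)

end sp

/-! ### Sums over nodes and plane sums -/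

/-- nodes of a plane inside three root intervals, read by an injective selector -/
theorem sum_le_GW {N k : ℕ} {R S T c : ℤ} {s : Finset Pt} (e : Pt → ℤ × ℤ × ℤ)
    (he : Set.InjOn e s) (h : ∀ p ∈ s, (e p).1 ∈ iv (N - k) R ∧ (e p).2.1 ∈ iv (N - k) T ∧
      (e p).2.2 ∈ iv (N - k) S ∧ (e p).1 + (e p).2.1 + (e p).2.2 = c) {g : ℤ → ℤ → ℤ → ℝ}
    (hg : ∀ n n' m, 0 ≤ g n n' m) :
    4 ^ k * ∑ p ∈ s, g (e p).1 (e p).2.1 (e p).2.2 ≤ GW N R S T k c g := by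
  unfold GW
  refine mul_le_mul_of_nonneg_left ?_ (by positivity)
  rw [← sum_product']
  have h1 : ∑ p ∈ s, g (e p).1 (e p).2.1 (e p).2.2 =
      ∑ q ∈ s.image (fun p => ((e p).2.2, (e p).1)),
        if c - q.1 - q.2 ∈ iv (N - k) T then g q.2 (c - q.1 - q.2) q.1 else 0 := by
    rw [sum_image]
    · refine sum_congr rfl fun p hp => ?_
      obtain ⟨_, h2, _, h4⟩ := h p hp
      have e1 : c - (e p).2.2 - (e p).1 = (e p).2.1 := by omega
      simp only [e1]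
      rw [if_pos h2]
    · intro p hp q hq hpq
      have hp' := (h p hp).2.2.2
      have hq' := (h q hq).2.2.2
      have a1 := congrArg Prod.fst hpq
      have a2 := congrArg Prod.snd hpq
      simp only at a1 a2
      have a3 : (e p).2.1 = (e q).2.1 := by omega
      exact he hp hq (Prod.ext a2 (Prod.ext a3 a1))
  rw [h1]
  refine sum_le_sum_of_subset_of_nonneg ?_ ?_
  · intro q hq
    obtain ⟨p, hp, rfl⟩ := mem_image.1 hq
    obtain ⟨a, _, b, _⟩ := h p hp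
    exact mem_product.2 ⟨b, a⟩
  · intro q _ _
    split_ifs
    · exact hg _ _ _
    · exact le_rfl

/-- the nodes of the sum: box and plane, order `(m3, m2, m1)` -/
def Nod (N : ℕ) (r3 r2 r1 : ℤ) (c : ℕ → ℤ) (s : ℕ → Finset Pt) : Prop :=
  ∀ k ∈ Icc 1 N, ∀ p ∈ s k, p.1 ∈ iv (N - k) r3 ∧ p.2.1 ∈ iv (N - k) r2 ∧
    p.2.2 ∈ iv (N - k) r1 ∧ p.1 + p.2.1 + p.2.2 = c k

section pairs

variable {N : ℕ} {r3 r2 r1 : ℤ} {c : ℕ → ℤ} {s : ℕ → Finset Pt}

/-- **Hub `y`** (the functions may depend on the scale and on the cells). -/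
theorem RPr_y (hs : Nod N r3 r2 r1 c s) (A : ℕ → Pt → ℤ → ℤ → ℝ)
    (B : ℕ → Pt → ℤ → ℤ → l → ℝ) (x y : ℝ) :
    RPr hd N s x y (fun k m => mzy k (A k m) m.1 m.2.1) (fun k m => myx k (B k m) m.2.2 m.2.1) ≤
      ∑ k ∈ Icc 1 N, GW N r3 r2 r1 k (c k) (fun n n' m => sp (hd k) x y
        (Xg k k (A k (n, m, n')) n m) (QW k k (B k (n, m, n')) (fun _ => 1) n' m)) := by
  unfold RPr
  refine sum_le_sum fun k hk => ?_
  refine le_trans (le_of_eq ?_) (sum_le_GW (N := N) (k := k) (c := c k) (s := s k)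
    (fun p : Pt => (p.1, p.2.2, p.2.1)) (fun p _ q _ h => ?_) (fun p hp => ?_)
    (fun n n' m => sp_nonneg (hd_symm k) (PL.H588.Xg_psd _ _ _ _ _) (Q1_psd _ _ _ _) x y))
  · rw [mul_sum]
    refine sum_congr rfl fun m _ => ?_
    rw [sp_term, gA_y, gB_y]
  · simp only [Prod.mk.injEq] at h
    exact Prod.ext h.1 (Prod.ext h.2.2 h.2.1)
  · obtain ⟨a, b, d, f⟩ := hs k hk p hp
    exact ⟨a, d, b, by simp only; omega⟩

/-- **Hub `x` with labels.** -/
theorem RPr_x (hs : Nod N r3 r2 r1 c s) (B C : ℕ → Pt → ℤ → ℤ → l → ℝ) (x y : ℝ) :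
    RPr (hL l) N s x y (fun k m => myx k (B k m) m.2.2 m.2.1)
      (fun k m => mxz k (C k m) m.1 m.2.2) ≤
      ∑ k ∈ Icc 1 N, GW N r2 r1 r3 k (c k) (fun n n' m => sp (hL l k) x y
        (Gx k (fun y x => B k (n', n, m) x y) n m) (Gx k (C k (n', n, m)) n' m)) := by
  unfold RPr
  refine sum_le_sum fun k hk => ?_
  refine le_trans (le_of_eq ?_) (sum_le_GW (N := N) (k := k) (c := c k) (s := s k)
    (fun p : Pt => (p.2.1, p.1, p.2.2)) (fun p _ q _ h => ?_) (fun p hp => ?_)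
    (fun n n' m => sp_nonneg (hL_symm k) (Gx_psd _ _ _ _) (Gx_psd _ _ _ _) x y))
  · rw [mul_sum]
    refine sum_congr rfl fun m _ => ?_
    rw [sp_term, gB_x, gC_x]
  · simp only [Prod.mk.injEq] at h
    exact Prod.ext h.2.1 (Prod.ext h.1 h.2.2)
  · obtain ⟨a, b, d, f⟩ := hs k hk p hp
    exact ⟨b, a, d, by simp only; omega⟩

/-- **Hub `z`**, `A` first. -/
theorem RPr_z (hs : Nod N r3 r2 r1 c s) (A : ℕ → Pt → ℤ → ℤ → ℝ)
    (C : ℕ → Pt → ℤ → ℤ → l → ℝ) (x y : ℝ) :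
    RPr hd N s x y (fun k m => mxz k (C k m) m.1 m.2.2) (fun k m => mzy k (A k m) m.1 m.2.1) ≤
      ∑ k ∈ Icc 1 N, GW N r2 r3 r1 k (c k) (fun n n' m => sp (hd k) y x
        (Xg k k (fun y z => A k (m, n, n') z y) n m)
        (QW k k (fun x z => C k (m, n, n') z x) (fun _ => 1) n' m)) := by
  unfold RPr
  refine sum_le_sum fun k hk => ?_
  refine le_trans (le_of_eq ?_) (sum_le_GW (N := N) (k := k) (c := c k) (s := s k)
    (fun p : Pt => (p.2.1, p.2.2, p.1)) (fun p _ q _ h => ?_) (fun p hp => ?_)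
    (fun n n' m => sp_nonneg (hd_symm k) (PL.H588.Xg_psd _ _ _ _ _) (Q1_psd _ _ _ _) y x))
  · rw [mul_sum]
    refine sum_congr rfl fun m _ => ?_
    rw [sp_term, gC_z, gA_z, sp_comm]
  · simp only [Prod.mk.injEq] at h
    exact Prod.ext h.2.2 (Prod.ext h.1 h.2.1)
  · obtain ⟨a, b, d, f⟩ := hs k hk p hp
    exact ⟨b, d, a, by simp only; omega⟩

end pairs

end

end Vale.Agent.P141.H159.StackM
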