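import Vale.Agent.P141.H159.StackM
import Vale.Agent.P141.H505.SkelStack1
import Vale.Agent.P141.H750.PadG
import Vale.Agent.P141.H733.StageYN

/-!
# P141, line (A), stack: the stage sum with labels from plane sums with raw partners

`stack_plane` : `H750.stageRect` read in the node form `nf3`, caps and pair bounds as plane sums,
with the numbers of `H733.stageY_num`.
-/

namespace Vale.Agent.P141.H159.StackR

open Finset Matrix Vale.Agent.P075 Vale.Agent.P141.PL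
open Vale.Agent.P141.PL.H588 (Xg hd)
open Vale.Agent.P141.PL.H804 (hd_symm hd_sq)
open Vale.Agent.P141.H103 (QW GW)
open Vale.Agent.P141.H536 (hL hd_diag)
open Vale.Agent.P141.H585.PairCh (phs)
open Vale.Agent.P141.H677 (nf3)
open Vale.Agent.P141.H145 (RPr)
open Vale.Agent.P141.H505.Sk1 (hdl)
open Vale.Agent.P141.H750.NG (RAB RBC RCA stageRect hlab hlab_symm hlab_sq)
open Vale.Agent.P141.H159.StackM

noncomputable section

/-! ### Caps -/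

section caps

variable {n m : Type*} [Fintype n] [DecidableEq n] [Fintype m] [DecidableEq m]

theorem cap_one {c : ℝ} (hc : 0 < c) {X : Matrix n n ℝ}
    (h : (c • (1 : Matrix n n ℝ) - X).PosSemidef) : (1 - c⁻¹ • X).PosSemidef := by
  have h1 := h.smul (inv_pos.2 hc).le
  rw [smul_sub, smul_smul, inv_mul_cancel₀ hc.ne', one_smul] at h1
  exact h1

theorem cap_c {c : ℝ} (hc : 0 < c) {X : Matrix n n ℝ}
    (h : (1 - c⁻¹ • X).PosSemidef) : (c • (1 : Matrix n n ℝ) - X).PosSemidef := by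
  have h1 := h.smul hc.le
  rw [smul_sub, smul_smul, mul_inv_cancel₀ hc.ne', one_smul] at h1
  exact h1

/-- a cap for the rows is a cap for the columns -/
theorem cap_swap {μ : ℝ} (hμ : 0 ≤ μ) {B : Matrix n m ℝ}
    (h : (1 - μ • (B * Bᵀ)).PosSemidef) : (1 - μ • (Bᵀ * B)).PosSemidef := by
  set N := (1 : Matrix m m ℝ) - μ • (Bᵀ * B) with hN
  have h1 : (Nᴴ * N).PosSemidef := posSemidef_conjTranspose_mul_self _
  have h2 : (μ • (Bᴴ * (1 - μ • (B * Bᵀ)) * B)).PosSemidef :=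
    (h.conjTranspose_mul_mul_same B).smul hμ
  have h3 := h1.add h2
  have e : Nᴴ * N + μ • (Bᴴ * (1 - μ • (B * Bᵀ)) * B) = N := by
    have e1 : Nᴴ = N := by
      rw [conjTranspose_eq_transpose_of_trivial, hN, transpose_sub, transpose_one, transpose_smul,
        transpose_mul, transpose_transpose]
    rw [e1, conjTranspose_eq_transpose_of_trivial, hN]
    simp only [Matrix.mul_sub, Matrix.sub_mul, Matrix.mul_one, Matrix.one_mul, Matrix.smul_mul,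
      Matrix.mul_smul, smul_sub, smul_smul, Matrix.mul_assoc]
    abel
  rwa [e] at h3

end caps

variable {l : Type} [Fintype l] [DecidableEq l]

/-- cap of `A` at the hub `y` from the hub `z` -/
theorem capA_swap {c : ℝ} (hc : 0 < c) {k : ℕ} {A : ℤ → ℤ → ℝ} {i j : ℤ}
    (h : (c • (1 : Matrix (Ix k) (Ix k) ℝ) - Xg k k (fun y z => A z y) j i).PosSemidef) :
    (c • (1 : Matrix (Ix k) (Ix k) ℝ) - Xg k k A i j).PosSemidef := by
  rw [← gA_z] at h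
  rw [← gA_y]
  refine cap_c hc ?_
  have h1 := cap_one hc h
  rw [smul_smul] at h1 ⊢
  exact cap_swap (by positivity) h1

/-- cap of `B` at the hub `x` from the hub `y` -/
theorem capB_swap {c : ℝ} (hc : 0 < c) {k : ℕ} {B : ℤ → ℤ → l → ℝ} {i j : ℤ}
    (h : (c • (1 : Matrix (Ix k) (Ix k) ℝ) - QW k k B (fun _ => 1) i j).PosSemidef) :
    (c • (1 : Matrix (Ix k × l) (Ix k × l) ℝ) - Gx k (fun y x => B x y) j i).PosSemidef := by
  rw [← gB_y] at h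
  rw [← gB_x]
  refine cap_c hc ?_
  have h1 := cap_one hc h
  rw [smul_smul] at h1 ⊢
  exact cap_swap (by positivity) h1

/-! ### Signs with labels -/

theorem hdl_eq (k : ℕ) : hdl l k = hlab l (hd k) := rfl

theorem hL_hdl {k : ℕ} (hk : 1 ≤ k) : hL l k = hdl l k := by
  ext p q
  unfold Vale.Agent.P141.H536.hL Vale.Agent.P141.H505.Sk1.hdl
  rw [hd_diag hk, Matrix.diagonal_apply, Matrix.diagonal_apply]
  by_cases h1 : p.2 = q.2
  · rw [if_pos h1]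
    by_cases h2 : p.1 = q.1
    · rw [if_pos h2, if_pos (Prod.ext h2 h1)]
    · rw [if_neg h2, if_neg fun h => h2 (congrArg Prod.fst h)]
  · rw [if_neg h1, if_neg fun h => h1 (congrArg Prod.snd h)]

theorem hdl_symm (k : ℕ) : (hdl l k)ᵀ = hdl l k := hlab_symm (hd_symm k)

section lab

variable {n : Type*} [Fintype n] [DecidableEq n] {h₀ : Matrix n n ℝ}

/-- the isometry which adds the label `l₀` -/
def Eis (l₀ : l) : Matrix (n × l) n ℝ := fun i j => if i.1 = j ∧ i.2 = l₀ then 1 else 0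

theorem Eis_iso (l₀ : l) : (Eis (n := n) l₀)ᵀ * (Eis (n := n) l₀) = 1 := by
  ext i j
  rw [Matrix.mul_apply, Matrix.one_apply]
  simp only [transpose_apply, Eis]
  rw [Fintype.sum_prod_type]
  by_cases hij : i = j
  · subst hij
    rw [if_pos rfl, Finset.sum_eq_single i]
    · rw [Finset.sum_eq_single l₀]
      · simp
      · intro b _ hb
        simp [hb]
      · simp
    · intro b _ hb
      refine Finset.sum_eq_zero fun a _ => ?_
      simp [hb]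
    · simp
  · rw [if_neg hij]
    refine Finset.sum_eq_zero fun a _ => Finset.sum_eq_zero fun b _ => ?_
    by_cases h1 : a = i
    · have h2 : ¬ a = j := fun h => hij (h1.symm.trans h)
      simp [h2]
    · simp [h1]

theorem Eis_inter (l₀ : l) :
    hlab l h₀ * (Eis (n := n) l₀) = (Eis (n := n) l₀) * h₀ := by
  ext i j
  rw [Matrix.mul_apply, Matrix.mul_apply, Fintype.sum_prod_type]
  simp only [hlab, Eis]
  have e : ∀ a : n, ∑ b : l, (if i.2 = b then h₀ i.1 a else 0) *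
      (if a = j ∧ b = l₀ then (1 : ℝ) else 0) =
      (if a = j then (if i.2 = l₀ then h₀ i.1 a else 0) else 0) := by
    intro a
    rw [Finset.sum_eq_single i.2]
    · by_cases h : a = j <;> by_cases h' : i.2 = l₀ <;> simp [h, h']
    · intro b _ hb
      rw [if_neg fun h => hb h.symm, zero_mul]
    · simp
  rw [Finset.sum_congr rfl fun a _ => e a, Finset.sum_ite_eq' univ j]
  have e2 : ∑ a : n, (if i.1 = a ∧ i.2 = l₀ then (1 : ℝ) else 0) * h₀ a j =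
      if i.2 = l₀ then h₀ i.1 j else 0 := by
    rw [Finset.sum_eq_single i.1]
    · by_cases h : i.2 = l₀ <;> simp [h]
    · intro b _ hb
      rw [if_neg fun h => hb h.1.symm, zero_mul]
    · simp
  rw [e2]
  simp

end lab

/-! ### The pair sums as plane sums -/

section fam

variable {X : Type*} {I : Finset X} {N : ℕ} {r3 r2 r1 : X → ℤ} {c : X → ℕ → ℤ}
  {s : X → ℕ → Finset Pt} {A : X → ℕ → Pt → ℤ → ℤ → ℝ} {B C : X → ℕ → Pt → ℤ → ℤ → l → ℝ}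

/-- the matrices of the nodes -/
def FA (A : X → ℕ → Pt → ℤ → ℤ → ℝ) (i : X) (k : ℕ) (m : Pt) : Matrix (Ix k) (Ix k) ℝ :=
  mzy k (A i k m) m.1 m.2.1
@[inherit_doc FA] def FB (B : X → ℕ → Pt → ℤ → ℤ → l → ℝ) (i : X) (k : ℕ) (m : Pt) :
    Matrix (Ix k) (Ix k × l) ℝ := myx k (B i k m) m.2.2 m.2.1
@[inherit_doc FA] def FC (C : X → ℕ → Pt → ℤ → ℤ → l → ℝ) (i : X) (k : ℕ) (m : Pt) :
    Matrix (Ix k × l) (Ix k) ℝ := mxz k (C i k m) m.1 m.2.2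

/-- plane sums of the static pair -/
def PAB (I : Finset X) (N : ℕ) (r3 r2 r1 : X → ℤ) (c : X → ℕ → ℤ)
    (A : X → ℕ → Pt → ℤ → ℤ → ℝ) (B : X → ℕ → Pt → ℤ → ℤ → l → ℝ) (x y : ℝ) : ℝ :=
  ∑ i ∈ I, ∑ k ∈ Icc 1 N, GW N (r3 i) (r2 i) (r1 i) k (c i k) (fun n n' m => sp (hd k) x y
    (Xg k k (A i k (n, m, n')) n m) (QW k k (B i k (n, m, n')) (fun _ => 1) n' m))

/-- plane sums of the pair `(B, C)` -/
def PBC (I : Finset X) (N : ℕ) (r3 r2 r1 : X → ℤ) (c : X → ℕ → ℤ)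
    (B C : X → ℕ → Pt → ℤ → ℤ → l → ℝ) (x y : ℝ) : ℝ :=
  ∑ i ∈ I, ∑ k ∈ Icc 1 N, GW N (r2 i) (r1 i) (r3 i) k (c i k) (fun n n' m => sp (hdl l k) x y
    (Gx k (fun y x => B i k (n', n, m) x y) n m) (Gx k (C i k (n', n, m)) n' m))

/-- plane sums of the pair `(A, C)`, `A` at the level `y` -/
def PCA (I : Finset X) (N : ℕ) (r3 r2 r1 : X → ℤ) (c : X → ℕ → ℤ)
    (C : X → ℕ → Pt → ℤ → ℤ → l → ℝ) (A : X → ℕ → Pt → ℤ → ℤ → ℝ) (x y : ℝ) : ℝ :=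
  ∑ i ∈ I, ∑ k ∈ Icc 1 N, GW N (r2 i) (r3 i) (r1 i) k (c i k) (fun n n' m => sp (hd k) y x
    (Xg k k (fun y z => A i k (m, n, n') z y) n m)
    (QW k k (fun x z => C i k (m, n, n') z x) (fun _ => 1) n' m))

/-- the pair `(B, C)` with raw `B` -/
def PBCr (I : Finset X) (N : ℕ) (r3 r2 r1 : X → ℤ) (c : X → ℕ → ℤ)
    (B C : X → ℕ → Pt → ℤ → ℤ → l → ℝ) (y : ℝ) : ℝ :=
  ∑ i ∈ I, ∑ k ∈ Icc 1 N, GW N (r2 i) (r1 i) (r3 i) k (c i k) (fun n n' m =>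
    (Gx k (fun y x => B i k (n', n, m) x y) n m * (hdl l k *
      phs (y ^ 2) (Gx k (C i k (n', n, m)) n' m) * hdl l k)).trace)

/-- the pair `(A, C)` with raw `A` -/
def PCAr (I : Finset X) (N : ℕ) (r3 r2 r1 : X → ℤ) (c : X → ℕ → ℤ)
    (C : X → ℕ → Pt → ℤ → ℤ → l → ℝ) (A : X → ℕ → Pt → ℤ → ℤ → ℝ) (x : ℝ) : ℝ :=
  ∑ i ∈ I, ∑ k ∈ Icc 1 N, GW N (r2 i) (r3 i) (r1 i) k (c i k) (fun n n' m =>
    (Xg k k (fun y z => A i k (m, n, n') z y) n m * (hd k *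
      phs (x ^ 2) (QW k k (fun x z => C i k (m, n, n') z x) (fun _ => 1) n' m) * hd k)).trace)

theorem GW_mono' (N : ℕ) (R S T : ℤ) (k : ℕ) (c : ℤ) {f g : ℤ → ℤ → ℤ → ℝ}
    (h : ∀ n n' m, f n n' m ≤ g n n' m) : GW N R S T k c f ≤ GW N R S T k c g := by
  unfold GW
  refine mul_le_mul_of_nonneg_left (sum_le_sum fun m _ => sum_le_sum fun n _ => ?_) (by positivity)
  split_ifs
  · exact h _ _ _
  · exact le_rfl

theorem PBC_le_raw {x : ℝ} (hx : 0 < x) (y : ℝ) :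
    PBC I N r3 r2 r1 c B C x y ≤ PBCr I N r3 r2 r1 c B C y :=
  sum_le_sum fun _ _ => sum_le_sum fun k _ => GW_mono' _ _ _ _ _ _ fun _ _ _ =>
    sp_raw (hdl_symm k) (Gx_psd _ _ _ _) (Gx_psd _ _ _ _) hx y

theorem PCA_le_raw {y : ℝ} (hy : 0 < y) (x : ℝ) :
    PCA I N r3 r2 r1 c C A x y ≤ PCAr I N r3 r2 r1 c C A x :=
  sum_le_sum fun _ _ => sum_le_sum fun k _ => GW_mono' _ _ _ _ _ _ fun _ _ _ =>
    sp_raw (hd_symm k) (PL.H588.Xg_psd _ _ _ _ _) (Q1_psd _ _ _ _) hy x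

variable (hs : ∀ i ∈ I, Nod N (r3 i) (r2 i) (r1 i) (c i) (s i))

include hs

theorem RAB_le (x y : ℝ) :
    RAB hd I N s x y (FA A) (FB B) ≤ PAB I N r3 r2 r1 c A B x y := by
  unfold PAB
  exact sum_le_sum fun i hi => RPr_y (hs i hi) (A i) (B i) x y

theorem RCA_le (x y : ℝ) :
    RCA hd I N s x y (FC C) (FA A) ≤ PCA I N r3 r2 r1 c C A x y := by
  unfold PCA
  exact sum_le_sum fun i hi => RPr_z (hs i hi) (A i) (C i) x y

theorem RBC_le (x y : ℝ) :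
    RBC (hdl l) I N s x y (FB B) (FC C) ≤ PBC I N r3 r2 r1 c B C x y := by
  unfold PBC
  refine sum_le_sum fun i hi => ?_
  have h := RPr_x (hs i hi) (B i) (C i) x y
  have e1 : RPr (hL l) N (s i) x y (fun k m => myx k (B i k m) m.2.2 m.2.1)
      (fun k m => mxz k (C i k m) m.1 m.2.2) = ∑ k ∈ Icc 1 N, ∑ m ∈ s i k, x ^ 2 * y ^ 2 *
      (4 ^ k * (phi (((x ^ 2)⁻¹ * (4 ^ k)⁻¹) • ((FB B i k m)ᵀ * FB B i k m)) *
      (hdl l k * phi (((y ^ 2)⁻¹ * (4 ^ k)⁻¹) • (FC C i k m * (FC C i k m)ᵀ)) * hdl l k)).trace) := by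
    unfold Vale.Agent.P141.H145.RPr
    refine sum_congr rfl fun k hk => sum_congr rfl fun m _ => ?_
    rw [hL_hdl (mem_Icc.1 hk).1]
    rfl
  have e2 : ∑ k ∈ Icc 1 N, GW N (r2 i) (r1 i) (r3 i) k (c i k) (fun n n' m => sp (hL l k) x y
        (Gx k (fun y x => B i k (n', n, m) x y) n m) (Gx k (C i k (n', n, m)) n' m)) =
      ∑ k ∈ Icc 1 N, GW N (r2 i) (r1 i) (r3 i) k (c i k) (fun n n' m => sp (hdl l k) x y
        (Gx k (fun y x => B i k (n', n, m) x y) n m) (Gx k (C i k (n', n, m)) n' m)) := by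
    refine sum_congr rfl fun k hk => ?_
    rw [hL_hdl (mem_Icc.1 hk).1]
  rw [e1, e2] at h
  exact h

end fam

/-! ### The stage sum -/

section main

variable {X : Type*} {I : Finset X} {N : ℕ} {r3 r2 r1 : X → ℤ} {c : X → ℕ → ℤ}
  {s : X → ℕ → Finset Pt} {A : X → ℕ → Pt → ℤ → ℤ → ℝ} {B C : X → ℕ → Pt → ℤ → ℤ → l → ℝ}
  {τ cC : ℝ}

theorem RCA_nonneg (x y : ℝ) : 0 ≤ RCA hd I N s x y (FC C) (FA A) := by
  unfold Vale.Agent.P141.H750.NG.RCA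
  refine sum_nonneg fun i _ => sum_nonneg fun k _ => sum_nonneg fun m _ => ?_
  refine mul_nonneg (by positivity) (mul_nonneg (by positivity) ?_)
  refine trace_mul_nonneg (phi_psd ?_) (psd_conj_symm (phi_psd ?_) (hd_symm k))
  · exact (psd_transpose_mul _).smul (by positivity)
  · exact gramR_psd (by positivity) _

/-- **The stage sum with labels, raw partners, plane sums.** -/
theorem stack_plane [Nonempty l] (hτ : 0 < τ) (hC : 0 < cC)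
    (hs : ∀ i ∈ I, Nod N (r3 i) (r2 i) (r1 i) (c i) (s i))
    (capA : ∀ i ∈ I, ∀ k ∈ Icc 1 N, ∀ m ∈ s i k,
      (τ ^ 2 • (1 : Matrix (Ix k) (Ix k) ℝ) - Xg k k (A i k m) m.1 m.2.1).PosSemidef)
    (capB : ∀ i ∈ I, ∀ k ∈ Icc 1 N, ∀ m ∈ s i k, (τ ^ 2 • (1 : Matrix (Ix k × l) (Ix k × l) ℝ) -
      Gx k (fun y x => B i k m x y) m.2.1 m.2.2).PosSemidef)
    (capC : ∀ i ∈ I, ∀ k ∈ Icc 1 N, ∀ m ∈ s i k, (cC ^ 2 • (1 : Matrix (Ix k) (Ix k) ℝ) -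
      QW k k (fun x z => C i k m z x) (fun _ => 1) m.2.2 m.1).PosSemidef)
    {P₀ P₁ Z σ e₂ θ M E EA EV : ℝ} (hP₀ : 0 ≤ P₀) (hZ0 : 0 ≤ Z) (hθ : 0 < θ)
    (hM : 0 ≤ M) (hE : 0 ≤ E) {D L₀ L₁ : ℕ}
    (hDσ : τ / 2 ^ (D - 1) ≤ σ) (hσ : σ ≤ e₂) (he₂ : e₂ ≤ τ)
    (hL₀ : cC / 2 ^ (L₀ - 1) ≤ θ * τ) (hL₁ : cC / 2 ^ (L₁ - 1) ≤ e₂)
    (hAB : ∀ h, 0 < h → h ≤ τ → PAB I N r3 r2 r1 c A B h h ≤ P₀ * h ^ 2)
    (hBC : ∀ x, θ * τ ≤ x → x ≤ cC → PBCr I N r3 r2 r1 c B C x ≤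
      M * (√(x ^ 2 * E * (τ ^ 2 * EV)) + τ ^ 2 * E))
    (hCA : ∀ x, θ * τ ≤ x → x ≤ cC → PCAr I N r3 r2 r1 c C A x ≤
      M * (√(x ^ 2 * E * (τ ^ 2 * EA)) + τ ^ 2 * E))
    (hθc : θ * τ ≤ cC)
    (hP1 : ∀ x, e₂ ≤ x → x ≤ θ * τ → PCA I N r3 r2 r1 c C A x σ ≤ P₁ * x ^ 2)
    (hZB : ∀ h, 0 < h → h ≤ e₂ → PBC I N r3 r2 r1 c B C h h ≤ Z * h ^ 2)
    (hZA : ∀ h, 0 < h → h ≤ e₂ → PCA I N r3 r2 r1 c C A h h ≤ Z * h ^ 2) :
    ∑ i ∈ I, ∑ k ∈ Icc 1 N, ∑ m ∈ s i k, |nf3 (A i k m) (B i k m) (C i k m) k m| ≤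
      6 * M * τ * L₀ * (√((θ * √(E * EA) + E) * (θ * √(E * EV) + E)) / θ) +
      6 * D * τ * (√(P₀ * M * (θ * √(E * EA) + E)) + √(P₀ * M * (θ * √(E * EV) + E))) +
      6 * L₁ * τ * √(P₁ * M * (θ * √(E * EV) + E)) + 54 * (P₀ + Z) * e₂ := by
  obtain ⟨l₀⟩ := ‹Nonempty l›
  have pA : 0 ≤ θ * √(E * EA) + E := by positivity
  have pB : 0 ≤ θ * √(E * EV) + E := by positivity
  have hBC' : ∀ x, θ * τ ≤ x → x ≤ cC → RBC (hdl l) I N s τ x (FB B) (FC C) ≤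
      M * (√(x ^ 2 * E * (τ ^ 2 * EV)) + τ ^ 2 * E) := fun x hx hx' =>
    (RBC_le hs τ x).trans ((PBC_le_raw hτ x).trans (hBC x hx hx'))
  have hCA' : ∀ x, θ * τ ≤ x → x ≤ cC → RCA hd I N s x τ (FC C) (FA A) ≤
      M * (√(x ^ 2 * E * (τ ^ 2 * EA)) + τ ^ 2 * E) := fun x hx hx' =>
    (RCA_le hs x τ).trans ((PCA_le_raw hτ x).trans (hCA x hx hx'))
  have h := stageRect (h := hdl l) (h₀ := hd) (E := fun k => Eis (n := Ix k) l₀) (I := I)
    (N := N) (s := s) (A := FA A) (B := FB B) (C := FC C) (τ := τ) (cC := cC)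
    hdl_symm (fun k => hlab_sq (hd_sq k)) (fun k => Eis_iso l₀) (fun k => Eis_inter l₀) hτ hC
    (fun i hi k hk m hm => by
      have h1 := cap_one (by positivity : (0 : ℝ) < τ ^ 2) (capA i hi k hk m hm)
      rw [← gA_y, smul_smul] at h1
      exact h1)
    (fun i hi k hk m hm => by
      have h1 := cap_one (by positivity : (0 : ℝ) < τ ^ 2) (capB i hi k hk m hm)
      rw [← gB_x, smul_smul] at h1
      exact h1)
    (fun i hi k hk m hm => by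
      have h1 := cap_one (by positivity : (0 : ℝ) < cC ^ 2) (capC i hi k hk m hm)
      rw [← gC_z, smul_smul] at h1
      exact h1)
    (P₀ := P₀) (P₁ := P₁) (QA := M * τ ^ 2 * (θ * √(E * EA) + E))
    (QB := M * τ ^ 2 * (θ * √(E * EV) + E)) (Z := Z)
    (κ' := M * τ * (√((θ * √(E * EA) + E) * (θ * √(E * EV) + E)) / θ)) (g := θ * τ) (σ := σ)
    (e₂ := e₂) hP₀ (by positivity) hZ0 (by positivity) (D := D) (L₀ := L₀) (L₁ := L₁) hDσ hσ hL₀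
    hL₁ (fun h h0 h1 => (RAB_le hs h h).trans (hAB h h0 h1))
    (fun h h0 h1 => (RAB_le hs h h).trans (hAB h h0 (h1.trans he₂)))
    (fun x hx hx' => H733.raw_kap hM hE hθ hτ hx (RCA_nonneg x τ) (hBC' x hx hx')
      (hCA' x hx hx'))
    ((hCA' _ le_rfl hθc).trans (le_of_eq (H733.raw_at hθ hτ)))
    ((hBC' _ le_rfl hθc).trans (le_of_eq (H733.raw_at hθ hτ)))
    (fun x h0 h1 => (RCA_le hs x σ).trans (hP1 x h0 h1))
    (fun x h0 h1 => (RBC_le hs x x).trans (hZB x h0 h1))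
    (fun x h0 h1 => (RCA_le hs x x).trans (hZA x h0 h1))
  have e0 : ∑ i ∈ I, ∑ k ∈ Icc 1 N, ∑ m ∈ s i k, |nf3 (A i k m) (B i k m) (C i k m) k m| =
      ∑ i ∈ I, ∑ k ∈ Icc 1 N, ∑ m ∈ s i k,
      |(2 ^ k : ℝ)⁻¹ * (hd k * FA A i k m * hd k * FB B i k m * hdl l k * FC C i k m).trace| := by
    refine sum_congr rfl fun i _ => sum_congr rfl fun k hk => sum_congr rfl fun m _ => ?_
    rw [nf3_tr (mem_Icc.1 hk).1, hL_hdl (mem_Icc.1 hk).1]
    rfl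
  rw [e0]
  refine h.trans (le_of_eq ?_)
  have e1 : ∀ P Q : ℝ, √(P * (M * τ ^ 2 * Q)) = τ * √(P * M * Q) := by
    intro P Q
    rw [show P * (M * τ ^ 2 * Q) = τ ^ 2 * (P * M * Q) by ring, Real.sqrt_mul (by positivity),
      Real.sqrt_sq hτ.le]
  rw [e1, e1, e1]
  ring

end main

end

end Vale.Agent.P141.H159.StackR
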